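import Crest.Agent.X262.Bnd.Defs

/-!
# Row 262, BND (helper81): the residue field of a centre

* `mem_ctr`, `ctr_mono`, `mem_cl` : elements of `ctr`, `cl`;
* `unit_iff`, `ctrHom`, `ctrEquiv` : `ctr H V` depends only on the local ring `loc H V`;
* `dim_congr`, `PG2.dim`, `dim_ctr_congr`, `srf_congr`;
* `loc_le_of_eq` : comparison of local rings through a Cartier majorant.
-/

set_option autoImplicit false

open scoped KaehlerDifferential

noncomputable section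

namespace Crest.Agent.X262.DivB

open Crest.Agent.X277 Crest.Agent.X277.Lef Crest.Agent.X277.BD Crest.Agent.X277.Pst
open Crest.Agent.X277.BD.Cyc (Rf plV lnr_plV)
open Crest.Agent.X262.Mod Crest.Agent.X262.Bnd

variable {K : Type} [Field K] [Algebra ℂ K] {H H' a b : BD ℂ K} {V W : RZ ℂ K} {x : K}

/-- the residue map of the local ring of the centre -/
def rho (H : BD ℂ K) (V : RZ ℂ K) : loc H V →ₐ[ℂ] Rf V where
  toFun x := (plV V).r x
  map_one' := (plV V).r_one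
  map_mul' x y := Pl.r_mul (p := plV V) (mem_of_loc x.2) (mem_of_loc y.2)
  map_zero' := (plV V).r_zero
  map_add' x y := Pl.r_add (p := plV V) (mem_of_loc x.2) (mem_of_loc y.2)
  commutes' c := lnr_plV V c


theorem r_mem_ctr (hx : x ∈ loc H V) : (plV V).r x ∈ ctr H V :=
  IntermediateField.subset_adjoin _ _ ⟨x, hx, rfl⟩

theorem mem_ctr {z : Rf V} : z ∈ ctr H V ↔ ∃ x ∈ loc H V, (plV V).r x = z := by
  refine ⟨fun h => ?_, fun ⟨x, hx, h⟩ => h ▸ r_mem_ctr hx⟩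
  let S : IntermediateField ℂ (Rf V) := (rho H V).range.toIntermediateField (by
    rintro _ ⟨x, rfl⟩
    by_cases h0 : (plV V).r x = 0
    · change ((plV V).r x)⁻¹ ∈ _
      rw [h0, inv_zero]
      exact zero_mem _
    · exact ⟨⟨_, Neg.inv_mem_loc x.2 (Pl.r_ne_zero_iff.1 h0)⟩, Pl.r_inv _⟩)
  have h1 : ctr H V ≤ S := IntermediateField.adjoin_le_iff.2 (by
    rintro _ ⟨x, hx, rfl⟩
    exact ⟨⟨x, hx⟩, rfl⟩)
  obtain ⟨x, hx⟩ := h1 h
  exact ⟨x, x.2, hx⟩

theorem ctr_mono (h : loc H V ≤ loc H' V) : ctr H V ≤ ctr H' V :=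
  IntermediateField.adjoin.mono _ _ _ (Set.image_mono h)

theorem mem_cl {z : Rf V} : z ∈ cl H V ↔ IsAlgebraic (ctr H V) z := mem_algebraicClosure_iff


/-- the units of the local ring -/
theorem unit_iff (hx : x ∈ loc H V) : V.v x = 1 ↔ x ≠ 0 ∧ x⁻¹ ∈ loc H V := by
  refine ⟨fun h => ⟨RZ.ne_zero_iff.1 (h ▸ one_ne_zero), Neg.inv_mem_loc hx h⟩, fun h => ?_⟩
  have h3 := RZ.le_one_iff.2 (mem_of_loc h.2)
  rw [map_inv₀, inv_le_one₀ (RZ.pos h.1)] at h3
  exact (RZ.le_one_iff.2 (mem_of_loc hx)).antisymm h3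

/-- the residue map onto the residue field of the centre -/
def rhoC (H : BD ℂ K) (V : RZ ℂ K) : loc H V →ₐ[ℂ] ctr H V :=
  (rho H V).codRestrict (ctr H V).toSubalgebra fun x => r_mem_ctr x.2

theorem rhoC_surj (H : BD ℂ K) (V : RZ ℂ K) : Function.Surjective (rhoC H V) := fun z => by
  obtain ⟨x, hx, h⟩ := mem_ctr.1 z.2
  exact ⟨⟨x, hx⟩, Subtype.ext h⟩

theorem rhoC_eq_zero (x : loc H V) : rhoC H V x = 0 ↔ V.v x ≠ 1 := by
  rw [Subtype.ext_iff]
  exact (Pl.r_ne_zero_iff (p := plV V)).not_right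

/-- a dominating local ring has a larger residue field -/
def ctrHom (h : loc H V ≤ loc H' W) (hd : ∀ x ∈ loc H V, W.v x = 1 → V.v x = 1) :
    ctr H V →ₐ[ℂ] ctr H' W :=
  (Ideal.Quotient.liftₐ (RingHom.ker (rhoC H V)) ((rhoC H' W).comp (Subalgebra.inclusion h))
    fun x hx => (rhoC_eq_zero _).2 fun h1 => (rhoC_eq_zero x).1 hx (hd x x.2 h1)).comp
    (Ideal.quotientKerAlgEquivOfSurjective (rhoC_surj H V)).symm.toAlgHom

theorem ctrHom_rhoC (h : loc H V ≤ loc H' W) (hd : ∀ x ∈ loc H V, W.v x = 1 → V.v x = 1)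
    (x : loc H V) : ctrHom h hd (rhoC H V x) = rhoC H' W ⟨x, h x.2⟩ := by
  have h1 : (Ideal.quotientKerAlgEquivOfSurjective (rhoC_surj H V)).symm (rhoC H V x) =
      Ideal.Quotient.mk _ x := (AlgEquiv.symm_apply_eq _).2 rfl
  exact congrArg (Ideal.Quotient.liftₐ (RingHom.ker (rhoC H V))
    ((rhoC H' W).comp (Subalgebra.inclusion h))
    fun x hx => (rhoC_eq_zero _).2 fun h1 => (rhoC_eq_zero x).1 hx (hd x x.2 h1)) h1

theorem dom_of_eq (h : loc H V = loc H' W) : ∀ x ∈ loc H V, W.v x = 1 → V.v x = 1 :=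
  fun _ hx h1 => (unit_iff hx).2 (h ▸ (unit_iff (h ▸ hx)).1 h1)

/-- the residue field of the centre depends only on the local ring -/
def ctrEquiv (h : loc H V = loc H' W) : ctr H V ≃ₐ[ℂ] ctr H' W :=
  AlgEquiv.ofBijective (ctrHom h.le (dom_of_eq h)) ⟨(ctrHom h.le (dom_of_eq h)).injective,
    fun z => by
      obtain ⟨x, rfl⟩ := rhoC_surj H' W z
      exact ⟨rhoC H V ⟨x, h.ge x.2⟩, ctrHom_rhoC _ _ _⟩⟩


theorem dim_congr {F F' : Type} [Field F] [Algebra ℂ F] [Field F'] [Algebra ℂ F']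
    [Algebra.EssFiniteType ℂ F] [Algebra.EssFiniteType ℂ F'] (e : F ≃ₐ[ℂ] F') :
    dim ℂ F = dim ℂ F' := by
  have h := e.trdeg_eq
  rw [trdeg_eq_dim, trdeg_eq_dim] at h
  exact_mod_cast h

theorem dim_of_bs {n : ℕ} {F : Type} [Field F] [Algebra ℂ F] (c : Bs n F) : dim ℂ F = n :=
  (Module.finrank_eq_card_basis c).trans (Fintype.card_fin n)

theorem _root_.Crest.Agent.X262.Bnd.PG2.dim {F : Type} [Field F] [Algebra ℂ F] (h : PG2 F) :
    dim ℂ F = 2 := by
  obtain ⟨-, c, -⟩ := h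
  exact dim_of_bs c

/-- a Cartier majorant with the same order at `V` compares the local rings -/
theorem loc_le_of_eq (ha : Car H a) (hb : b ≤ a) (h : b.val V = a.val V) : loc b V ≤ loc H V := by
  obtain ⟨c, -, hc⟩ := ha
  obtain ⟨t, ht, h1⟩ := hc.exists_gen V
  rintro x ⟨j, s, h2, h3, h4⟩
  have e : (j * c) • H = j • a + j • (c • H - a) := by
    rw [← smul_add, add_sub_cancel, mul_smul]
  have hj : j • b ≤ j • a := nsmul_le_nsmul_right hb j
  refine ⟨j * c, s * t ^ j, e ▸ mul_mem_Sec (Sec_mono hj h2) (pow_mem_Sec ht j), ?_, ?_⟩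
  · rw [e, map_mul, map_pow, h3, h1, val_add, val_nsmul, val_nsmul, val_nsmul, h]
  · rw [e, ← mul_assoc]
    exact mul_mem_Sec (Sec_mono hj h4) (pow_mem_Sec ht j)

variable [Algebra.EssFiniteType ℂ K]

theorem dim_ctr_congr (hV : Dvs V) (hW : Dvs W) (h : loc H V = loc H' W) :
    dim ℂ (ctr H V) = dim ℂ (ctr H' W) := by
  have := Geo.essFT_Rf hV
  have := Geo.essFT_Rf hW
  exact dim_congr (ctrEquiv h)

theorem srf_congr (hP : PGStmt) (hV : Dvs V) (hW : Dvs W) (h : loc H V = loc H' W)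
    (hs : Srf H V) : Srf H' W := by
  have := Geo.essFT_Rf hW
  exact hP _ _ (ctrEquiv h : ctr H V →ₐ[ℂ] ctr H' W) hs ((dim_ctr_congr hV hW h).symm.trans hs.dim)

end Crest.Agent.X262.DivB
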